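import Mathlib

/-! A counting form of the local lemma (Rosenfeld / Wanless--Wood style).
Colourings `V → α`; bad events `e ∈ I` depend only on the values on `E e`;
if for every vertex the weighted number of bad configurations through it is at most
`card α - β`, some colouring avoids all bad events. -/

set_option autoImplicit false

namespace Crest.Agent.Lib.CountLLL

open Finset

variable {V α ι : Type*} [Fintype V] [DecidableEq V] [Fintype α] [DecidableEq α] [Inhabited α]

open Classical in
/-- colourings supported in `A` with no bad event inside `A` -/
noncomputable def good (I : Finset ι) (E : ι → Finset V) (bad : ι → (V → α) → Prop)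
    (A : Finset V) : Finset (V → α) :=
  univ.filter (fun f => (∀ v, v ∉ A → f v = default) ∧ ∀ e ∈ I, E e ⊆ A → ¬ bad e f)

theorem mem_good {I : Finset ι} {E : ι → Finset V} {bad : ι → (V → α) → Prop}
    {A : Finset V} {f : V → α} :
    f ∈ good I E bad A ↔ (∀ v, v ∉ A → f v = default) ∧ ∀ e ∈ I, E e ⊆ A → ¬ bad e f := by
  simp [good]

theorem iter_of_step (I : Finset ι) (E : ι → Finset V) (bad : ι → (V → α) → Prop) (β : ℝ)
    (hβ : 0 < β) (n : ℕ)
    (step : ∀ A : Finset V, A.card < n → ∀ v, v ∉ A →
      β * ((good I E bad A).card : ℝ) ≤ (good I E bad (insert v A)).card)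
    (A : Finset V) (hA : A.card ≤ n) (S : Finset V) (hS : S ⊆ A) :
    β ^ S.card * ((good I E bad (A \ S)).card : ℝ) ≤ (good I E bad A).card := by
  induction S using Finset.induction_on with
  | empty => simp
  | insert u S hu ih =>
    have hS' : S ⊆ A := (subset_insert u S).trans hS
    have huA : u ∈ A := hS (mem_insert_self u S)
    have h1 := ih hS'
    have hcard : (A \ insert u S).card < n := by
      have : A \ insert u S ⊂ A := by
        refine ⟨sdiff_subset, fun h => ?_⟩
        have := h huA
        simp at this
      exact lt_of_lt_of_le (card_lt_card this) hA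
    have h2 := step (A \ insert u S) hcard u (by simp)
    have h3 : insert u (A \ insert u S) = A \ S := by
      ext w
      simp only [mem_insert, mem_sdiff, not_or]
      constructor
      · rintro (rfl | h)
        · exact ⟨huA, hu⟩
        · exact ⟨h.1, h.2.2⟩
      · intro h
        by_cases hw : w = u
        · exact Or.inl hw
        · exact Or.inr ⟨h.1, hw, h.2⟩
    rw [h3] at h2
    rw [card_insert_of_notMem hu, pow_succ, mul_assoc]
    exact le_trans (mul_le_mul_of_nonneg_left h2 (by positivity)) h1

open Classical in
theorem step (I : Finset ι) (E : ι → Finset V) (bad : ι → (V → α) → Prop)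
    (hdep : ∀ e ∈ I, ∀ f g : V → α, (∀ v ∈ E e, f v = g v) → bad e f → bad e g)
    (B : ι → ℝ)
    (hB : ∀ e ∈ I, ((univ.filter (fun f : V → α =>
      (∀ v, v ∉ E e → f v = default) ∧ bad e f)).card : ℝ) ≤ B e)
    (β : ℝ) (hβ : 0 < β)
    (hsum : ∀ v, ∑ e ∈ I.filter (fun e => v ∈ E e), B e * β / β ^ (E e).card
      ≤ Fintype.card α - β) (n : ℕ) :
    ∀ A : Finset V, A.card < n → ∀ v, v ∉ A →
      β * ((good I E bad A).card : ℝ) ≤ (good I E bad (insert v A)).card := by
  induction n with
  | zero => intro A hA; omega
  | succ n ih =>
    intro A hA v hv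
    have hAn : A.card ≤ n := by omega
    have iter := iter_of_step I E bad β hβ n ih A hAn
    set S : Finset (V → α) := univ.filter (fun f => Function.update f v default ∈ good I E bad A)
      with hSdef
    have hS1 : Fintype.card α * (good I E bad A).card ≤ S.card := by
      rw [← Finset.card_univ, ← Finset.card_product]
      refine Finset.card_le_card_of_injOn (fun p => Function.update p.2 v p.1) ?_ ?_
      · rintro ⟨a, h⟩ hp
        simp only [coe_product, Set.mem_prod, mem_coe] at hp
        have hh := hp.2
        have : Function.update (Function.update h v a) v default = h := by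
          rw [Function.update_idem, ← (mem_good.1 hh).1 v hv, Function.update_eq_self]
        simp only [hSdef, coe_filter, mem_univ, true_and, Set.mem_ofPred_eq, this]
        exact hh
      · rintro ⟨a, h⟩ hp ⟨a', h'⟩ hp' heq
        simp only [coe_product, Set.mem_prod, mem_coe] at hp hp'
        have e1 : a = a' := by
          have := congrFun heq v
          simpa using this
        have e2 : h = h' := by
          funext w
          by_cases hw : w = v
          · subst hw
            rw [(mem_good.1 hp.2).1 w hv, (mem_good.1 hp'.2).1 w hv]
          · have := congrFun heq w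
            simpa [Function.update_of_ne hw] using this
        rw [e1, e2]
    set J := I.filter (fun e => v ∈ E e ∧ E e ⊆ insert v A) with hJ
    have hS2 : S ⊆ good I E bad (insert v A) ∪ J.biUnion (fun e => S.filter (bad e)) := by
      intro f hf
      have hf' : Function.update f v default ∈ good I E bad A := by simpa [hSdef] using hf
      by_cases hg : ∀ e ∈ I, E e ⊆ insert v A → ¬ bad e f
      · refine mem_union_left _ (mem_good.2 ⟨fun w hw => ?_, hg⟩)
        have hwv : w ≠ v := fun h => hw (h ▸ mem_insert_self v A)
        have hwA : w ∉ A := fun h => hw (mem_insert_of_mem h)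
        have := (mem_good.1 hf').1 w hwA
        rwa [Function.update_of_ne hwv] at this
      · push Not at hg
        obtain ⟨e, heI, heA, hbad⟩ := hg
        refine mem_union_right _ (mem_biUnion.2 ⟨e, ?_, mem_filter.2 ⟨hf, hbad⟩⟩)
        refine mem_filter.2 ⟨heI, ?_, heA⟩
        by_contra hve
        have hsub : E e ⊆ A := by
          intro w hw
          rcases mem_insert.1 (heA hw) with h | h
          · exact absurd (h ▸ hw) hve
          · exact h
        refine (mem_good.1 hf').2 e heI hsub (hdep e heI f _ (fun w hw => ?_) hbad)
        have hwv : w ≠ v := fun h => hve (h ▸ hw)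
        rw [Function.update_of_ne hwv]
    have hS3 : ∀ e ∈ J, ((S.filter (bad e)).card : ℝ) ≤
        B e * β / β ^ (E e).card * (good I E bad A).card := by
      intro e he
      obtain ⟨heI, hve, heA⟩ := mem_filter.1 he
      have h1 : (S.filter (bad e)).card ≤ (univ.filter (fun f : V → α =>
          (∀ v, v ∉ E e → f v = default) ∧ bad e f)).card *
          (good I E bad (A \ (E e).erase v)).card := by
        rw [← Finset.card_product]
        refine Finset.card_le_card_of_injOn
          (fun f => (fun w => if w ∈ E e then f w else default,
            fun w => if w ∈ E e then default else f w)) ?_ ?_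
        · intro f hf
          obtain ⟨hfS, hfb⟩ := mem_filter.1 (mem_coe.1 hf)
          have hf' : Function.update f v default ∈ good I E bad A := by simpa [hSdef] using hfS
          simp only [coe_product, Set.mem_prod, mem_coe, mem_filter, mem_univ, true_and]
          refine ⟨⟨fun w hw => by simp [hw], hdep e heI f _ (fun w hw => by simp [hw]) hfb⟩, ?_⟩
          refine mem_good.2 ⟨fun w hw => ?_, fun e' he' hsub hb => ?_⟩
          · by_cases hwE : w ∈ E e
            · simp [hwE]
            · have hwv : w ≠ v := fun h => hwE (h ▸ hve)
              have hwA : w ∉ A := by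
                intro h
                exact hw (mem_sdiff.2 ⟨h, fun h' => hwE (mem_of_mem_erase h')⟩)
              have := (mem_good.1 hf').1 w hwA
              rw [Function.update_of_ne hwv] at this
              simp [hwE, this]
          · refine (mem_good.1 hf').2 e' he' (hsub.trans sdiff_subset)
              (hdep e' he' _ _ (fun w hw => ?_) hb)
            have hw' := mem_sdiff.1 (hsub hw)
            have hwv : w ≠ v := fun h => hv (h ▸ hw'.1)
            have hwE : w ∉ E e := fun h => hw'.2 (mem_erase.2 ⟨hwv, h⟩)
            simp [hwE, Function.update_of_ne hwv]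
        · intro f _ g _ hfg
          have e1 := congrArg Prod.fst hfg
          have e2 := congrArg Prod.snd hfg
          funext w
          by_cases hw : w ∈ E e
          · have := congrFun e1 w
            simpa [hw] using this
          · have := congrFun e2 w
            simpa [hw] using this
      have hsub : (E e).erase v ⊆ A := by
        intro w hw
        rcases mem_insert.1 (heA (mem_of_mem_erase hw)) with h | h
        · exact absurd h (ne_of_mem_erase hw)
        · exact h
      have h2 := iter _ hsub
      have hc : (E e).card = ((E e).erase v).card + 1 := (card_erase_add_one hve).symm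
      have hB0 : 0 ≤ B e := le_trans (Nat.cast_nonneg _) (hB e heI)
      have hpow : 0 < β ^ ((E e).erase v).card := by positivity
      have h3 : ((good I E bad (A \ (E e).erase v)).card : ℝ) ≤
          (good I E bad A).card / β ^ ((E e).erase v).card := by
        rw [le_div_iff₀ hpow, mul_comm]; exact h2
      calc ((S.filter (bad e)).card : ℝ) ≤ ((univ.filter (fun f : V → α =>
          (∀ v, v ∉ E e → f v = default) ∧ bad e f)).card : ℝ) *
          (good I E bad (A \ (E e).erase v)).card := by exact_mod_cast h1
        _ ≤ B e * ((good I E bad A).card / β ^ ((E e).erase v).card) :=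
          mul_le_mul (hB e heI) h3 (Nat.cast_nonneg _) hB0
        _ = B e * β / β ^ (E e).card * (good I E bad A).card := by
          rw [hc, pow_succ]; field_simp
    have hS4 : (S.card : ℝ) ≤ (good I E bad (insert v A)).card +
        ∑ e ∈ J, ((S.filter (bad e)).card : ℝ) := by
      have := (card_le_card hS2).trans ((card_union_le _ _).trans
        (Nat.add_le_add_left card_biUnion_le _))
      exact_mod_cast this
    have hS5 : ∑ e ∈ J, ((S.filter (bad e)).card : ℝ) ≤
        (Fintype.card α - β) * (good I E bad A).card := by
      refine (sum_le_sum hS3).trans ?_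
      rw [← sum_mul]
      refine mul_le_mul_of_nonneg_right (le_trans ?_ (hsum v)) (Nat.cast_nonneg _)
      refine sum_le_sum_of_subset_of_nonneg ?_ ?_
      · intro e he
        obtain ⟨heI, hve, -⟩ := mem_filter.1 he
        exact mem_filter.2 ⟨heI, hve⟩
      · intro e he _
        have hB0 : 0 ≤ B e := le_trans (Nat.cast_nonneg _) (hB e (mem_filter.1 he).1)
        positivity
    have hS1' : (Fintype.card α : ℝ) * (good I E bad A).card ≤ S.card := by exact_mod_cast hS1
    nlinarith

open Classical in
/-- The counting local lemma. -/
theorem exists_good (I : Finset ι) (E : ι → Finset V) (bad : ι → (V → α) → Prop)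
    (hdep : ∀ e ∈ I, ∀ f g : V → α, (∀ v ∈ E e, f v = g v) → bad e f → bad e g)
    (hne : ∀ e ∈ I, (E e).Nonempty)
    (B : ι → ℝ)
    (hB : ∀ e ∈ I, ((univ.filter (fun f : V → α =>
      (∀ v, v ∉ E e → f v = default) ∧ bad e f)).card : ℝ) ≤ B e)
    (β : ℝ) (hβ : 0 < β)
    (hsum : ∀ v, ∑ e ∈ I.filter (fun e => v ∈ E e), B e * β / β ^ (E e).card
      ≤ Fintype.card α - β) :
    ∃ f : V → α, ∀ e ∈ I, ¬ bad e f := by
  have h := iter_of_step I E bad β hβ (Fintype.card V)
    (step I E bad hdep B hB β hβ hsum _) univ (by simp) univ subset_rfl
  have h0 : 0 < (good I E bad (univ \ univ)).card := by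
    refine card_pos.2 ⟨fun _ => default, mem_good.2 ⟨fun _ _ => rfl, fun e he hsub => ?_⟩⟩
    obtain ⟨w, hw⟩ := hne e he
    simpa using hsub hw
  have h1 : (0 : ℝ) < (good I E bad (univ : Finset V)).card :=
    lt_of_lt_of_le (mul_pos (by positivity) (by exact_mod_cast h0)) h
  obtain ⟨f, hf⟩ := card_pos.1 (by exact_mod_cast h1 : 0 < (good I E bad (univ : Finset V)).card)
  exact ⟨f, fun e he => (mem_good.1 hf).2 e he (subset_univ _)⟩

end Crest.Agent.Lib.CountLLL
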